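import Crest.Agent.X212.Csm97.Cut
import Crest.Agent.X212.Mod61.Fmt
import Crest.Agent.X212.Mon62.Wrd

/-!
# Row 212, CUT-SM (helper97), part 3: the rows of a cut in the Banach model
-/

set_option autoImplicit false
set_option linter.unusedSectionVars false
noncomputable section
open scoped Manifold ContDiff Topology InnerProductSpace
open Set Function Filter

namespace Crest.Agent.X212.Csm97
open An Prm93 Mod61 Sob92
open Mon62 (UC Bv Dm CF MF)

variable {E : Type} [NormedAddCommGroup E] [NormedSpace ℝ E] [FiniteDimensional ℝ E]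
  [MeasurableSpace E] [BorelSpace E]
  {HM : Type} [TopologicalSpace HM] {I : ModelWithCorners ℝ E HM} [I.Boundaryless]
  {M : Type} [TopologicalSpace M] [ChartedSpace HM M] [IsManifold I ∞ M] [T2Space M]
  [MeasurableSpace M] [BorelSpace M] [SecondCountableTopology M] {ι : Type} [Fintype ι]
  {lam : Type} [Fintype lam] {T : Type} [NormedAddCommGroup T] [NormedSpace ℝ T]
  {c : Cut M lam}

section val
variable {V : Type} [NormedAddCommGroup V] [InnerProductSpace ℝ V] [CompleteSpace V]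
  {F : Pre I M ι} {S : ℝ} {j : ℕ}

/-- restriction of Sobolev sections to the paths -/
def valC (h : Dat I c) (hS : Sup F S) (hj : 4 ≤ j) (p : M → V →L[ℝ] V) :
    CL (F.H j p) C(II × Ci, V) :=
  LinearMap.mkContinuous
    { toFun := fun u => ⟨fun z => F.val j p u (c.γ z.2 z.1), (continuous_val hS hj u).comp
        (h.cont.comp (continuous_snd.prodMk (continuous_subtype_val.comp continuous_fst)))⟩
      map_add' := fun u v => ContinuousMap.ext fun _ => congrFun (val_add u v) _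
      map_smul' := fun r u => ContinuousMap.ext fun _ => congrFun (val_smul r u) _ } √|S|
    fun u => by
      rw [ContinuousMap.norm_le _ (by positivity)]
      exact fun z => norm_val_le hS hj u _

theorem norm_valC (h : Dat I c) (hS : Sup F S) (hj : 4 ≤ j) (p : M → V →L[ℝ] V) :
    ‖valC h hS hj p‖ ≤ √|S| := LinearMap.mkContinuous_norm_le _ (Real.sqrt_nonneg _) _

theorem s0_val (h : Dat I c) (hS : Sup F S) (hj : 4 ≤ j) {p : M → V →L[ℝ] V} {O : Set T}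
    {u : T → F.H j p} (hu : ContDiffOn ℝ ∞ u O) : S0 O fun x θ s => F.val j p (u x) (c.γ θ s) :=
  S0.of_map (fun _ _ => h.cont_on (continuous_val hS hj _).continuousOn)
    ((valC h hS hj p).contDiff.comp_contDiffOn hu) fun _ _ _ => rfl

end val

section fmt
variable {𝔉 : Fam I M ι lam T} (o : Ref 𝔉) {r k : ℕ}

/-- the connection of a point of the Banach model -/
def Wv (v : o.C r k) : o.m.Cn := o.W v.2.2.2 (𝔉.F0.val _ _ v.1)

theorem Wv_pt (hk : 3 ≤ k) (y : Pnt o r) : Wv o (y.pt k) = y.cfg.W :=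
  congrArg (o.W y.t) (val_ofV y.hα (by omega))

theorem Wv_apply (v : o.C r k) (a : ι) (x : M) : Wv o v a x =
    𝔉.W0 o.m (o.A v.2.2.2) v.2.2.2 a x +
    ∑ b, 𝔉.S v.2.2.2 x a b • opL (𝔉.F0.val _ _ v.1 x b) := by
  simp only [Wv, Ref.W, Md.addC, Wz78.idx_apply, map_sum, map_smul, ContinuousLinearMap.id_apply]

variable (H : 𝔉.OK)
include H

theorem ff (h : Dat I c) : FF 𝔉.Q c fun t => (𝔉.G t).F :=
  FF.mix h H.mix (fun t ht y a b => by rw [H.P0]; exact H.SiS t ht y a b)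
    (fun t ht y a b => by rw [(H.G t ht).P]; exact H.SiP t ht y a b)
    (fun a b => h.s1_sb (H.sS a b)) fun a b => h.s0_sb (H.sSi a b)

theorem sb_W0 (a : ι) : SB 𝔉.F0.toPre 𝔉.Q fun t => 𝔉.W0 o.m (o.A t) t a :=
  ((SB.sum fun b => (H.sS a b).smul ((o.sbA b).mono (subset_univ _))).add
    (SB.sum fun b => SB.sum fun l =>
    (H.scf a b l).smul ((SB.fixed (o.cρ b)).mul (SB.fixed (o.cρ l))))).add
    ((H.sla a).smul ((SB.fixed (Cb_const o.m.J)).mul (SB.fixed o.cp)))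

theorem Wv_cont (hk : 3 ≤ k) {v : o.C r k} (hv : v ∈ o.U r k) (a : ι) : Continuous (Wv o v a) := by
  obtain ⟨C, hC⟩ := H.tame
  have h1 := continuous_val (Sup.of_tame hC) (by omega : 4 ≤ k + 1) v.1
  refine Continuous.congr ?_ fun x => (Wv_apply o v a x).symm
  exact (Cb.sm ((sb_W0 o H a).cb _ hv)).continuous.add (continuous_finsetSum _ fun b _ =>
    (Cb.sm ((H.sS a b).cb _ hv)).continuous.smul (opL.continuous.comp
      ((PiLp.proj (𝕜 := ℝ) 2 (fun _ : ι => o.m.A) b).continuous.comp h1)))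

theorem Wv_s0 (h : Dat I c) (hk : 3 ≤ k) (a : ι) : S0 (o.U r k) fun v => Wp c (Wv o v) a := by
  obtain ⟨C, hC⟩ := H.tame
  have ht : ContDiffOn ℝ ∞ (fun v : o.C r k => v.2.2.2) (o.U r k) := by fun_prop
  have h1 := s0_val h (Sup.of_tame hC) (by omega : 4 ≤ k + 1) (O := o.U r k)
    (u := fun v : o.C r k => v.1) contDiffOn_fst
  exact (((h.s0_sb (sb_W0 o H a)).reparam ht fun _ hv => hv).add (S0.sum fun b =>
    ((h.s0_sb (H.sS a b)).reparam ht fun _ hv => hv).smul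
      ((h1.clm (PiLp.proj (𝕜 := ℝ) 2 (fun _ : ι => o.m.A) b)).clm opL))).congr
    fun v _ _ _ => Wv_apply o v a _

variable (hc : ∀ t ∈ 𝔉.Q, c.OK 𝔉.B (𝔉.G t).F)
include hc

theorem ffU {v : o.C r k} (hv : v ∈ o.U r k) : FF (o.U r k) c fun v => (𝔉.G v.2.2.2).F :=
  (ff H (dat (hc _ hv))).reparam (by fun_prop) fun _ hv => hv

theorem sym_model (hk : 3 ≤ k) : ContDiffOn ℝ ∞
    (fun v : o.C r k => cm (c.sym 𝔉.B (𝔉.G v.2.2.2).F o.m (Wv o v))) (o.U r k) := fun v hv =>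
  sym_sm H.B o.ok (ffU o H hc hv) (fun _ hv => hc _ hv)
    (fun _ hv a => (Wv_cont o H hk hv a).continuousOn) (Wv_s0 o H (dat (hc _ hv)) hk) v hv

theorem sym_cont_model (hk : 3 ≤ k) {v : o.C r k} (hv : v ∈ o.U r k) :
    Continuous (c.sym 𝔉.B (𝔉.G v.2.2.2).F o.m (Wv o v)) :=
  sym_cont H.B o.ok (hc _ hv) fun a => (Wv_cont o H hk hv a).continuousOn

theorem T_model' (hk : 3 ≤ k) :
    ContDiffOn ℝ ∞ (fun v : o.C r k => c.T 𝔉.B (𝔉.G v.2.2.2).F o.m (Wv o v)) (o.U r k) :=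
  (tpzL o.m.J (o.m.pp 𝔉.B c.x0)).contDiff.comp_contDiffOn (sym_model o H hc hk)

/-- **CUT-SM**, the Toeplitz operator -/
theorem T_model (hk : 3 ≤ k) : ∃ f : o.C r k → CL (c.H 𝔉.B o.m) (c.H 𝔉.B o.m),
    ContDiffOn ℝ ∞ f (o.U r k) ∧
      ∀ y : Pnt o r, f (y.pt k) = c.T 𝔉.B (𝔉.G y.t).F o.m y.cfg.W :=
  ⟨_, T_model' o H hc hk, fun y => by rw [Wv_pt o hk]; rfl⟩

theorem pi_model : ContDiffOn ℝ ∞ (fun v : o.C r k => c.pi 𝔉.B (𝔉.G v.2.2.2).F o.m c.x0)
    (o.U r k) := fun v hv => pi_x0 H.B o.ok (ffU o H hc hv) (fun _ hv => hc _ hv) v hv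

/-- **CUT-SM**, the terms, from the values of the words at the base point -/
theorem tc_model (t : Tc M lam r) {g : o.C r k → En (Fin o.m.N)} (hg : ContDiffOn ℝ ∞ g (o.U r k))
    (e : ∀ y : Pnt o r, g (y.pt k) = y.cfg.xi (𝔉.G y.t).F t.ξ c.x0) {cf : T → ℝ}
    (hf : ContDiffOn ℝ ∞ cf 𝔉.Q) : ∃ f : o.C r k → CL (c.H 𝔉.B o.m) (c.H 𝔉.B o.m),
      ContDiffOn ℝ ∞ f (o.U r k) ∧
        ∀ y : Pnt o r, f (y.pt k) = cf y.t • y.cfg.tc 𝔉.B (𝔉.G y.t).F c t := by
  have hp := pi_model o H hc (r := r) (k := k)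
  have h1 : ContDiffOn ℝ ∞ (fun v : o.C r k => cf v.2.2.2) (o.U r k) :=
    hf.comp (by fun_prop) fun _ hv => hv
  refine ⟨_, (frkL o.m.J (o.m.pp 𝔉.B c.x0) t.m t.n).contDiff.comp_contDiffOn
    (h1.smul (((hp.mul (contDiffOn_const (c := csE o.m.J t.w))).mul hg).mul hp)), fun y => ?_⟩
  rw [comp_apply, Pi.smul_apply', map_smul, e]
  rfl

end fmt

/-! ### the words at a point, in the calculus of `Mon62` -/

section wrd
variable {J : Type} {X Y : J → Type} [∀ i, NormedAddCommGroup (X i)] [∀ i, NormedSpace ℝ (X i)]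
  {D : Dm I M ι X Y} {μ : MF M ι lam J} {r j : ℕ} {ε : Prop}

theorem sc_ev {V : Type} [NormedAddCommGroup V] [InnerProductSpace ℝ V] [CompleteSpace V]
    {w : ∀ i, Y i → M → V} (hj : 4 ≤ j) (h : D.A0 ε j w) (x₀ : J → M) :
    D.Sc fun i y => w i y (x₀ i) := by
  obtain ⟨b, δ, ⟨C, hC⟩, -, h3, h4⟩ := h.ex
  exact ⟨_, (UC.const (c := fun i => b i (x₀ i)) ⟨C 0, fun i => CB_bound ((hC i).2 0) _⟩).add
    (h3.clm (L := fun i => (D.P i).ev j _ (x₀ i)) ⟨_, fun i => (ev_spec (D.sup i) hj _).2⟩),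
    fun i y => h4 i y _⟩

variable (D) in
/-- uniform bounds for the coefficients -/
def XiU : Xi M lam r → Prop
  | .one => True
  | .aw ξ => D.AwU ξ
  | .qj d _ _ v l => D.CoU d ∧ D.SwU v ∧ ∀ t ∈ l, D.LaU t

/-- decay condition (automatic on a fixed closed manifold) -/
def XiP (κ : CF D μ r) (j : ℕ) : Xi M lam r → Prop
  | .qj _ s u _ _ => D.A0 True j (κ.js s u)
  | _ => True

theorem sc_xi {κ : CF D μ r} (h : κ.OK ε j) {ξ : Xi M lam r} (hξ : XiU D ξ) (hp : XiP κ j ξ)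
    (x₀ : J → M) :
    D.Sc (N := En (Fin μ.N)) fun i y => (κ.c i y).xi (κ.F i y) ξ (x₀ i) := by
  cases ξ with
  | one => exact Dm.Sc.const 1
  | aw ξ => exact (sc_ev h.h4 (h.aw hξ) x₀).clm opL
  | qj d s u v l =>
    exact (sc_ev h.h4 (h.wdA (h.q (h.cs (ε' := True) (h.co hξ.1) hp) (h.sw hξ.2.1)) hξ.2.2)
      x₀).clm opL

end wrd

end Crest.Agent.X212.Csm97
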