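import Crest.Agent.X212.Csm97.Vol
import Crest.Agent.X212.Eqv71.Gau
import Crest.Agent.X212.Wz78.Sd
import Crest.Agent.X212.Prm93.H

/-!
# Row 212, CUT-SM (helper97), part 2: the symbol of a cut as a smooth map

`Psi` : the symbol as an explicit smooth function of the values along the paths (`cm_sym`);
`FF` : families of frames; `sym_cont`, `sym_sm`, `sym_tendsto`.
-/

set_option autoImplicit false
set_option linter.unusedSectionVars false
noncomputable section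
open scoped Manifold ContDiff Topology InnerProductSpace
open Set Function Filter

namespace Crest.Agent.X212.Csm97
open An Prm93
open Mon62 (UC Rg Bv Bd)
open Wz78 (SA)

abbrev Ci : Type := UnitAddCircle

section alg
variable {R : Type} [NormedRing R] [NormedAlgebra ℝ R]

def pa1 (A p p' : R) : R := A + ((2 : ℝ) • p - 1) * (p' + (A * p - p * A))

/-- the corrected connection as a polynomial -/
def pa (A p p' q q' : R) : R :=
  pa1 A p p' - (1 / 2 : ℝ) • (q * (q' + (pa1 A p p' * q - q * pa1 A p p')))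

theorem contDiffOn_pa {X : Type} [NormedAddCommGroup X] [NormedSpace ℝ X] {O : Set X}
    {A p p' q q' : X → R} (hA : ContDiffOn ℝ ∞ A O) (hp : ContDiffOn ℝ ∞ p O)
    (hp' : ContDiffOn ℝ ∞ p' O) (hq : ContDiffOn ℝ ∞ q O) (hq' : ContDiffOn ℝ ∞ q' O) :
    ContDiffOn ℝ ∞ (fun x => pa (A x) (p x) (p' x) (q x) (q' x)) O := by
  have h : ContDiffOn ℝ ∞ (fun x => pa1 (A x) (p x) (p' x)) O :=
    hA.add (((hp.const_smul 2).sub contDiffOn_const).mul (hp'.add ((hA.mul hp).sub (hp.mul hA))))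
  exact h.sub ((hq.mul (hq'.add ((h.mul hq).sub (hq.mul h)))).const_smul _)

theorem continuous_pa {X : Type} [TopologicalSpace X] {A p p' q q' : X → R} (hA : Continuous A)
    (hp : Continuous p) (hp' : Continuous p') (hq : Continuous q) (hq' : Continuous q') :
    Continuous fun x => pa (A x) (p x) (p' x) (q x) (q' x) := by
  unfold pa pa1; fun_prop

variable {J : Type} {X : J → Type} [∀ i, NormedAddCommGroup (X i)] [∀ i, NormedSpace ℝ (X i)]
  {Q : Rg X}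

theorem uc_mul {u v : ∀ i, X i → R} (hu : UC Q u) (hv : UC Q v) : UC Q fun i x => u i x * v i x :=
  UC.bil (β := fun _ => ContinuousLinearMap.mul ℝ R) (Bv.const _) hu hv

theorem uc_pa {A p p' q q' : ∀ i, X i → R} (hA : UC Q A) (hp : UC Q p) (hp' : UC Q p')
    (hq : UC Q q) (hq' : UC Q q') :
    UC Q fun i x => pa (A i x) (p i x) (p' i x) (q i x) (q' i x) := by
  have h : UC Q fun i x => pa1 (A i x) (p i x) (p' i x) :=
    hA.add (uc_mul (((UC.const (Bv.const 2)).smul hp).sub (UC.const (Bv.const 1)))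
      (hp'.add ((uc_mul hA hp).sub (uc_mul hp hA))))
  exact h.sub ((UC.const (Bv.const _)).smul (uc_mul hq (hq'.add ((uc_mul h hq).sub (uc_mul hq h)))))

end alg

section Sy
variable {κ : Type} [Fintype κ]

/-- the end point -/
def t1 : II := ⟨1, zero_le_one, le_rfl⟩

/-- constants -/
def cst (N : Type) [NormedAddCommGroup N] [NormedSpace ℝ N] : CL N C(Ci, N) :=
  ContinuousLinearMap.const ℝ Ci

/-- the symbol as a function of the coefficient and the projector -/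
def Sy (pp : En κ) (a : C(II × Ci, En κ)) (p : En κ) : C(Ci, En κ) :=
  cst _ (Eqv71.trnL (evC 0 (Hol t1 a))) * Hol t1 a * cst _ p + cst _ (pp - p)

theorem Sy_apply (pp : En κ) (a : C(II × Ci, En κ)) (p : En κ) (θ : Ci) :
    Sy pp a p θ = trn (Hol t1 a 0) * Hol t1 a θ * p + (pp - p) := rfl

theorem contDiffOn_Sy (pp : En κ) {X : Type} [NormedAddCommGroup X] [NormedSpace ℝ X] {O : Set X}
    {a : X → C(II × Ci, En κ)} {p : X → En κ} (ha : ContDiffOn ℝ ∞ a O) (hp : ContDiffOn ℝ ∞ p O) :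
    ContDiffOn ℝ ∞ (fun x => Sy pp (a x) (p x)) O := by
  have h := (contDiff_Hol t1).comp_contDiffOn ha
  exact ((((cst _).contDiff.comp_contDiffOn (Eqv71.trnL.contDiff.comp_contDiffOn
    ((evC 0).contDiff.comp_contDiffOn h))).mul h).mul ((cst _).contDiff.comp_contDiffOn hp)).add
    ((cst _).contDiff.comp_contDiffOn (contDiffOn_const.sub hp))

theorem uc_Sy (pp : En κ) {J : Type} {X : J → Type} [∀ i, NormedAddCommGroup (X i)]
    [∀ i, NormedSpace ℝ (X i)] {Q : Rg X} {a : ∀ i, X i → C(II × Ci, En κ)} {p : ∀ i, X i → En κ}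
    (ha : UC Q a) (hp : UC Q p) : UC Q fun i x => Sy pp (a i x) (p i x) := by
  have h := uc_Hol t1 ha
  have c : ∀ {u : ∀ i, X i → En κ}, UC Q u → UC Q fun i x => cst _ (u i x) := fun hu =>
    hu.clm (L := fun _ => cst _) (Bv.const _)
  exact (uc_mul (uc_mul (c ((h.clm (L := fun _ => evC 0) (Bv.const _)).clm
    (L := fun _ => Eqv71.trnL) (Bv.const _))) h) (c hp)).add (c ((UC.const (Bv.const pp)).sub hp))

/-- `T ↦ A T C` -/
def sand {W X Y Z : Type} [NormedAddCommGroup W] [NormedSpace ℝ W] [NormedAddCommGroup X]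
    [NormedSpace ℝ X] [NormedAddCommGroup Y] [NormedSpace ℝ Y] [NormedAddCommGroup Z]
    [NormedSpace ℝ Z] (A : CL Y Z) (C : CL W X) : CL (CL X Y) (CL W Z) :=
  ContinuousLinearMap.compL ℝ W Y Z A ∘L (ContinuousLinearMap.compL ℝ W X Y).flip C

variable (J p : En κ)

/-- compression as a linear map -/
def cprL : CL (CL (L2c κ) (L2c κ)) (CL (Hd J p) (Hd J p)) :=
  sand (Hd J p).orthogonalProjectionOnto (Hd J p).subtypeL

/-- Toeplitz operators as a linear map of the symbol -/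
def tpzL : CL C(Ci, En κ) (CL (Hd J p) (Hd J p)) := cprL J p ∘L mulC

theorem tpzL_cm (g : Ci → En κ) : tpzL J p (cm g) = tpz J p g := rfl

/-- finite rank terms as a linear map -/
def frkL (m n : ℕ) : CL (En κ) (CL (Hd J p) (Hd J p)) :=
  cprL J p ∘L sand (md J m) (fc J n)

theorem frkL_apply (m n : ℕ) (Ξ : En κ) : frkL J p m n Ξ = frk J p m n Ξ := rfl

end Sy

variable {E : Type} [NormedAddCommGroup E] [NormedSpace ℝ E] [FiniteDimensional ℝ E]
  [MeasurableSpace E] [BorelSpace E]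
  {HM : Type} [TopologicalSpace HM] {I : ModelWithCorners ℝ E HM} [I.Boundaryless]
  {M : Type} [TopologicalSpace M] [ChartedSpace HM M] [IsManifold I ∞ M]
  [MeasurableSpace M] [BorelSpace M] [SecondCountableTopology M] {ι : Type} [Fintype ι]
  {lam : Type} [Fintype lam] {N : Type} [NormedAddCommGroup N] [NormedSpace ℝ N]
  {X : Type} [NormedAddCommGroup X] [NormedSpace ℝ X] {O : Set X}
  {k : Cut M lam} {B : Base M ι lam} {m : Md M ι lam}

theorem cont_lift {Z : Type} [TopologicalSpace Z] {f : Ci → ℝ → Z}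
    (h : Continuous fun y : ℝ × ℝ => f y.1 y.2) : Continuous (uncurry f) :=
  (QuotientAddGroup.isOpenQuotientMap_mk.prodMap IsOpenQuotientMap.id).continuous_comp_iff.1 h

variable (I k) in
/-- smoothness of the data -/
structure Dat : Prop where
  sm : ContMDiff 𝓘(ℝ, ℝ × ℝ) I ∞ fun y : ℝ × ℝ => k.γ (y.1 : UnitAddCircle) y.2
  h0 : ∀ θ s, s ≤ 0 → k.γ θ s = k.x0
  h1 : ∀ θ s, 1 ≤ s → k.γ θ s = k.γ 0 1
  sw : ∀ t ∈ k.w, Sm I t.1 ∧ Sm I t.2.1 ∧ Sm I t.2.2
  se : ∀ t ∈ k.e, Sm I t.1 ∧ Sm I t.2.1 ∧ Sm I t.2.2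

theorem dat {F : Fr I M ι} (h : k.OK B F) : Dat I k :=
  ⟨h.sm, h.h0, h.h1, fun t ht => ⟨Cb.sm (h.sw t ht).1, (h.sw t ht).2.1.1, (h.sw t ht).2.2.1⟩,
    fun t ht => ⟨Cb.sm (h.se t ht).1, (h.se t ht).2.1.1, (h.se t ht).2.2.1⟩⟩

namespace Dat
variable (h : Dat I k)
include h

theorem cont : Continuous (uncurry k.γ) := cont_lift h.sm.continuous

theorem path (θ : Ci) : ContMDiff 𝓘(ℝ, ℝ) I ∞ (k.γ θ) := by
  obtain ⟨r, rfl⟩ := QuotientAddGroup.mk_surjective θ
  exact h.sm.comp (contDiff_const.prodMk contDiff_id : ContDiff ℝ ∞ fun s : ℝ => (r, s)).contMDiff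

theorem supp_eq : k.supp = range fun z : II × Ci => k.γ z.2 z.1 := by
  refine Subset.antisymm ?_ (by rintro _ ⟨z, rfl⟩; exact ⟨(z.2, z.1), rfl⟩)
  rintro _ ⟨⟨θ, s⟩, rfl⟩
  rcases le_total s 0 with h0 | h0
  · exact ⟨(⟨0, le_rfl, zero_le_one⟩, θ), (h.h0 θ 0 le_rfl).trans (h.h0 θ s h0).symm⟩
  rcases le_total 1 s with h1 | h1
  · exact ⟨(t1, θ), (h.h1 θ 1 le_rfl).trans (h.h1 θ s h1).symm⟩
  · exact ⟨(⟨s, h0, h1⟩, θ), rfl⟩

theorem isCompact_supp : IsCompact k.supp := h.supp_eq ▸ isCompact_range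
  (h.cont.comp (continuous_snd.prodMk (continuous_subtype_val.comp continuous_fst)))

theorem cont_on {Z : Type} [TopologicalSpace Z] {u : M → Z} (hu : ContinuousOn u k.supp) :
    Continuous (uncurry fun θ s => u (k.γ θ s)) :=
  hu.comp_continuous h.cont fun z => ⟨z, rfl⟩

theorem der_mf {u : M → N} {θ : Ci} {s : ℝ} (hu : MDifferentiableAt I 𝓘(ℝ, N) u (k.γ θ s)) :
    HasDerivAt (fun s => u (k.γ θ s))
      (mfderiv I 𝓘(ℝ, N) u (k.γ θ s) (mfderiv 𝓘(ℝ, ℝ) I (k.γ θ) s (1 : ℝ))) s := by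
  let L : ℝ →L[ℝ] N := (mfderiv I 𝓘(ℝ, N) u (k.γ θ s)).comp (mfderiv 𝓘(ℝ, ℝ) I (k.γ θ) s)
  have h1 : HasFDerivAt (fun s => u (k.γ θ s)) L s := (hu.hasMFDerivAt.comp s
    ((h.path θ).mdifferentiableAt (by simp)).hasMFDerivAt).hasFDerivAt
  exact h1.hasDerivAt

/-- the chain rule along the paths -/
theorem der (F : Fr I M ι) {u : M → N} {θ : Ci} {s : ℝ}
    (hu : MDifferentiableAt I 𝓘(ℝ, N) u (k.γ θ s)) :
    HasDerivAt (fun s => u (k.γ θ s)) (∑ a, k.vel F θ s a • F.D a u (k.γ θ s)) s := by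
  refine (h.der_mf hu).congr_deriv ?_
  conv_lhs => rw [← (Num57.cf F (k.γ θ s)).ex (mfderiv 𝓘(ℝ, ℝ) I (k.γ θ) s (1 : ℝ))]
  exact (map_sum (mfderiv I 𝓘(ℝ, N) u (k.γ θ s)) _ _).trans
    (Finset.sum_congr rfl fun a _ => map_smul _ _ _)

theorem der_cont {u : M → N} {y : ℝ × ℝ} (hu : SA I u (k.γ y.1 y.2)) :
    ContinuousAt (fun y : ℝ × ℝ => deriv (fun s => u (k.γ y.1 s)) y.2) y := by
  have h1 : ContDiffAt ℝ 1 (fun y : ℝ × ℝ => u (k.γ y.1 y.2)) y :=
    (ContMDiffAt.comp y hu (h.sm y)).contDiffAt.of_le (by simp)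
  refine ((h1.continuousAt_fderiv one_ne_zero).clm_apply
    (continuousAt_const (y := ((0 : ℝ), (1 : ℝ))))).congr ?_
  filter_upwards [h1.eventually (by simp)] with z hz
  exact ((hz.differentiableAt one_ne_zero).hasFDerivAt.comp_hasDerivAt z.2
    ((hasDerivAt_const z.2 z.1).prodMk (hasDerivAt_id z.2))).deriv.symm

theorem vel_cont (F : Fr I M ι) (a : ι) : Continuous (uncurry fun θ s => k.vel F θ s a) := by
  refine cont_lift (continuous_iff_continuousAt.2 fun y => ?_)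
  obtain ⟨f, hf, he⟩ := Num57.exists_th F (k.γ y.1 y.2)
  have hc := h.sm.continuous.continuousAt (x := y)
  refine ContinuousAt.congr (tendsto_finsetSum Finset.univ fun i _ =>
    (ContinuousAt.comp (f := fun y : ℝ × ℝ => k.γ y.1 y.2) (hf a i).continuousAt hc).mul
      (h.der_cont (Num57.sm_yc (mem_extChartAt_source _) i))) ?_
  filter_upwards [hc.eventually he, hc.eventually (extChartAt_source_mem_nhds (I := I) _)]
    with z h1 h2
  have h3 : ∀ v : E, Num57.tl F (k.γ z.1 z.2) a v = ∑ i, f a i (k.γ z.1 z.2) *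
      Dr59.mf I 𝓘(ℝ, ℝ) (Num57.yc (I := I) (k.γ y.1 y.2) i) (k.γ z.1 z.2) v := fun v => by
    rw [← Num57.e1_io, ← Num57.th, h1 a, Finset.sum_apply, Num57.e1_sum]
    refine Finset.sum_congr rfl fun i _ => ?_
    rw [Pi.smul_apply', Num57.e1_smul]
    exact congrArg _ (Num57.e1_io _ _)
  refine Eq.trans (Finset.sum_congr rfl fun i _ => ?_) (h3 _).symm
  exact congrArg _ (h.der_mf (Num57.sm_yc h2 i).md).deriv

/-- fixed functions along the paths -/
theorem s1 {u : M → N} (hu : ∀ x ∈ k.supp, SA I u x) : S1 O fun _ θ s => u (k.γ θ s) :=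
  ⟨S0.fixed (h.cont_on fun x hx => (hu x hx).continuousAt.continuousWithinAt),
    fun _ _ θ s => (h.der_mf (hu _ ⟨(θ, s), rfl⟩).md).differentiableAt,
    S0.fixed (cont_lift (continuous_iff_continuousAt.2 fun _ => h.der_cont (hu _ ⟨(_, _), rfl⟩)))⟩

theorem s1' {u : M → N} (hu : Sm I u) : S1 O fun _ θ s => u (k.γ θ s) := h.s1 fun x _ => hu x

/-- restriction of `Cb` functions to the paths -/
def resB (F : Pre I M ι) : CL (Prm93.B F 0 N) C(II × Ci, N) :=
  LinearMap.mkContinuous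
    { toFun := fun f => ⟨fun z => Prm93.B.fn f (k.γ z.2 z.1), f.sm.continuous.comp
        (h.cont.comp (continuous_snd.prodMk (continuous_subtype_val.comp continuous_fst)))⟩
      map_add' := fun _ _ => rfl
      map_smul' := fun _ _ => rfl } 1 fun f => by
      rw [one_mul, ContinuousMap.norm_le _ (norm_nonneg f)]
      exact fun z => Sob92.CB_bound f.CB _

theorem s0_sb {F : Pre I M ι} {f : X → M → N} (hf : SB F O f) : S0 O fun x θ s => f x (k.γ θ s) :=
  S0.of_map (fun x hx => h.cont_on (Cb.sm (hf.cb x hx)).continuous.continuousOn)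
    ((h.resB F).contDiff.comp_contDiffOn (hf.sm 0)) fun x hx _ =>
      congrFun (fn_toB (hf.cb x hx)) _

/-- smooth families of `Cb` functions along the paths -/
theorem s1_sb {F : Fr I M ι} {f : X → M → N} (hf : SB F.toPre O f) :
    S1 O fun x θ s => f x (k.γ θ s) :=
  S1.of_der (h.s0_sb hf) (S0.sum fun a => (S0.fixed (h.vel_cont F a)).smul (h.s0_sb (hf.D a)))
    fun x hx _ _ => h.der F ((Cb.sm (hf.cb x hx)).mdifferentiableAt (by simp))

end Dat

variable (k O) in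
/-- families of frames -/
structure FF (F : X → Fr I M ι) : Prop where
  D : ∀ g : M → ℝ, Sm I g → ∀ a, S1 O fun x θ s => (F x).D a g (k.γ θ s)
  vel : ∀ a, S0 O fun x θ s => k.vel (F x) θ s a

theorem FF.fixed (h : Dat I k) (F : Fr I M ι) : FF O k fun _ => F :=
  ⟨fun _ hg a => h.s1' (F.sm_D hg a), fun a => S0.fixed (h.vel_cont F a)⟩

theorem FF.reparam {F : X → Fr I M ι} (h : FF O k F) {X' : Type} [NormedAddCommGroup X']
    [NormedSpace ℝ X'] {φ : X' → X} {O' : Set X'} (hφ : ContDiffOn ℝ ∞ φ O') (hm : MapsTo φ O' O) :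
    FF O' k fun x => F (φ x) :=
  ⟨fun g hg a => (h.D g hg a).reparam hφ hm, fun a => (h.vel a).reparam hφ hm⟩

theorem vel_mix {F F' : Fr I M ι} {S Si : ι → ι → ℝ} {θ : Ci} {s : ℝ}
    (h1 : ∀ a, F'.e a (k.γ θ s) = ∑ b, S a b • F.e b (k.γ θ s))
    (h2 : ∀ a b, ∑ c, Si a c * S c b = F.P a b (k.γ θ s))
    (h3 : ∀ a b, ∑ c, Si a c * F'.P c b (k.γ θ s) = Si a b) (a : ι) :
    k.vel F' θ s a = ∑ b, k.vel F θ s b * Si b a := by
  have e : ∀ b, Num57.ee F (k.γ θ s) b = ∑ c, Si b c • Num57.ee F' (k.γ θ s) c := fun b => by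
    have h4 : ∀ c, Num57.ee F' (k.γ θ s) c = ∑ b, S c b • Num57.ee F (k.γ θ s) b := h1
    simp only [h4, Finset.smul_sum, smul_smul]
    rw [Finset.sum_comm]
    simp only [← Finset.sum_smul, h2]
    exact (F.P_e b _).symm
  rw [Cut.vel, ← (Num57.cf F (k.γ θ s)).ex (mfderiv 𝓘(ℝ, ℝ) I (k.γ θ) s (1 : ℝ)), map_sum]
  refine Finset.sum_congr rfl fun b _ => ?_
  rw [map_smul, e, Num57.tl_comb, ← h3 b a]
  exact congrArg _ (Finset.sum_congr rfl fun c _ => by rw [mul_comm, F'.P_symm])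

theorem FF.mix (h : Dat I k) {F0 : Fr I M ι} {F : X → Fr I M ι} {S Si : X → M → ι → ι → ℝ}
    (h1 : ∀ x ∈ O, Mix F0.toPre (F x).toPre fun a b y => S x y a b)
    (h2 : ∀ x ∈ O, ∀ y a b, ∑ c, Si x y a c * S x y c b = F0.P a b y)
    (h3 : ∀ x ∈ O, ∀ y a b, ∑ c, Si x y a c * (F x).P c b y = Si x y a b)
    (hS : ∀ a b, S1 O fun x θ s => S x (k.γ θ s) a b)
    (hSi : ∀ a b, S0 O fun x θ s => Si x (k.γ θ s) a b) : FF O k F :=
  ⟨fun g hg a => (S1.sum fun b => (hS a b).smul (h.s1' (F0.sm_D hg b))).congr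
      fun x hx _ _ => congrFun ((h1 x hx).D a g) _,
    fun a => (S0.sum fun b => (S0.fixed (h.vel_cont F0 b)).mul (hSi b a)).congr
      fun x hx _ _ => vel_mix (fun a => h1 x hx a _) (h2 x hx _) (h3 x hx _) a⟩

theorem S1.toLp {α : Type} [Fintype α] {f : α → X → Ci → ℝ → ℝ} (h : ∀ a, S1 O (f a)) :
    S1 O fun x θ s => (WithLp.toLp 2 fun a => f a x θ s : Eu α) := by
  classical
  refine (S1.sum fun a => (h a).smul (S1.const (EuclideanSpace.single a (1 : ℝ)))).congr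
    fun x _ θ s => ?_
  ext b
  simp [Pi.single_apply]

theorem sm_sd (hB : B.OK I) (s t : ι × ι) : Sm I fun x => B.sd x s t :=
  ((((hB.sP _ _).mul (hB.sP _ _)).sub ((hB.sP _ _).mul (hB.sP _ _))).div_const 2 |>.add
    ((hB.so _ _ _ _).div_const 2)).div_const 2

variable {F : X → Fr I M ι} (hB : B.OK I) (hm : m.OK I B) (h : Dat I k) (hF : FF O k F)
include h

section
include hB hF

theorem dd_s1 {g g' : M → ℝ} (hg : Sm I g) (hg' : Sm I g') :
    S1 O fun x θ s => B.dd (F x) g g' (k.γ θ s) :=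
  S1.toLp fun u => S1.sum fun t => (h.s1' (sm_sd hB u t)).mul ((hF.D g hg _).mul (hF.D g' hg' _))

theorem om_s1 : S1 O fun x θ s => k.om B (F x) (k.γ θ s) :=
  S1.lsum k.w fun t ht => (h.s1' (h.sw t ht).1).smul (dd_s1 hB h hF (h.sw t ht).2.1 (h.sw t ht).2.2)

end

include hm

theorem c2_s1 {w : X → Ci → ℝ → Eu (ι × ι)} (hw : S1 O w) :
    S1 O fun x θ s => m.c2 (k.γ θ s) (w x θ s) :=
  S1.sum fun u => (hw.clm (EuclideanSpace.proj u)).smul
    ((h.s1' (hm.sρ u.1)).mul (h.s1' (hm.sρ u.2)))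

include hB hF

theorem pi_s1 (ho : ∀ x ∈ O, ∀ θ s, k.om B (F x) (k.γ θ s) ≠ 0) :
    S1 O fun x θ s => k.pi B (F x) m (k.γ θ s) := by
  have h1 : ContDiffOn ℝ ∞ (fun w : Eu (ι × ι) => (2 * ‖w‖)⁻¹) {0}ᶜ := fun w hw =>
    ((contDiffAt_const.mul (contDiffAt_norm ℝ hw)).inv
      (mul_ne_zero two_ne_zero (norm_ne_zero_iff.2 hw))).contDiffWithinAt
  exact ((h.s1' (Wz78.sm_pp hm hB)).sub (((om_s1 hB h hF).cmp isOpen_compl_singleton h1 ho).smul
    ((S1.const m.J).mul (c2_s1 hm h (om_s1 hB h hF))))).csmul _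

theorem q0_s1 (ho : ∀ x ∈ O, ∀ θ s, k.om B (F x) (k.γ θ s) ≠ 0) :
    S1 O fun x θ s => k.q0 B (F x) m (k.γ θ s) :=
  ((pi_s1 hB hm h hF ho).mul (S1.lsum k.e fun t ht =>
    (c2_s1 hm h (dd_s1 hB h hF (h.se t ht).2.1 (h.se t ht).2.2)).mul
      ((h.s1' hm.sj).bil (ContinuousLinearMap.id ℝ _) (h.s1' (h.se t ht).1)))).mul
    (pi_s1 hB hm h hF ho)

theorem qu_s1 (ho : ∀ x ∈ O, ∀ θ s, k.om B (F x) (k.γ θ s) ≠ 0)
    (hq : ∀ x ∈ O, ∀ θ s, k.q0 B (F x) m (k.γ θ s) ≠ 0) :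
    S1 O fun x θ s => k.qu B (F x) m (k.γ θ s) := by
  have h1 : ContDiffOn ℝ ∞ (fun w : m.A => 2 / ‖w‖) {0}ᶜ := fun w hw =>
    (contDiffAt_const.div (contDiffAt_norm ℝ hw) (norm_ne_zero_iff.2 hw)).contDiffWithinAt
  refine (((q0_s1 hB hm h hF ho).clm hsL).cmp isOpen_compl_singleton h1 fun x hx θ s e =>
    hq x hx θ s ?_).smul (q0_s1 hB hm h hF ho)
  rw [← Wz78.opL_hsL (k.q0 B (F x) m (k.γ θ s)), mem_singleton_iff.1 e, map_zero]

omit hB hm h hF

/-- a connection along the paths -/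
abbrev Wp (k : Cut M lam) {m : Md M ι lam} (W : m.Cn) (a : ι) (θ : Ci) (s : ℝ) : En (Fin m.N) :=
  W a (k.γ θ s)

variable (k B m) in
/-- the corrected connection as a function of the values `w` of the connection along the paths -/
def Phi (G : Fr I M ι) (w : ι → C(II × Ci, En (Fin m.N))) : C(II × Ci, En (Fin m.N)) :=
  pa (∑ a, bilC (ContinuousLinearMap.lsmul ℝ ℝ) (c2 fun θ s => k.vel G θ s a) (w a))
    (c2 fun θ s => k.pi B G m (k.γ θ s)) (c2 fun θ => deriv fun s => k.pi B G m (k.γ θ s))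
    (c2 fun θ s => k.qu B G m (k.γ θ s)) (c2 fun θ => deriv fun s => k.qu B G m (k.γ θ s))

variable (k B m) in
/-- the symbol as a function of the values `w` of the connection along the paths -/
def Psi (G : Fr I M ι) (w : ι → C(II × Ci, En (Fin m.N))) : C(Ci, En (Fin m.N)) :=
  Sy (m.pp B k.x0) (Phi k B m G w) (k.pi B G m k.x0)

theorem A2_eq (G : Fr I M ι) (W : m.Cn) (θ : Ci) (s : ℝ) : k.A2 B G m W θ s =
    pa (∑ a, k.vel G θ s a • W a (k.γ θ s)) (k.pi B G m (k.γ θ s))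
      (deriv (fun s => k.pi B G m (k.γ θ s)) s) (k.qu B G m (k.γ θ s))
      (deriv (fun s => k.qu B G m (k.γ θ s)) s) := by
  simp only [Cut.A2, Cut.A1, Cut.A0, cvd, pa, pa1]

include hB hm

section fixed
variable {G : Fr I M ι} (hk : k.OK B G) {W : m.Cn}
include hk

theorem pi_fix : S1 O fun _ θ s => k.pi B G m (k.γ θ s) :=
  pi_s1 hB hm (dat hk) (FF.fixed (dat hk) G) fun _ _ => hk.om

theorem qu_fix : S1 O fun _ θ s => k.qu B G m (k.γ θ s) :=
  qu_s1 hB hm (dat hk) (FF.fixed (dat hk) G) (fun _ _ => hk.om) fun _ _ => hk.q0 m hm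

theorem pi_diff (θ : Ci) : Differentiable ℝ fun s => k.pi B G m (k.γ θ s) :=
  (pi_fix (O := (univ : Set ℝ)) hB hm hk).df 0 trivial θ

theorem qu_diff (θ : Ci) : Differentiable ℝ fun s => k.qu B G m (k.γ θ s) :=
  (qu_fix (O := (univ : Set ℝ)) hB hm hk).df 0 trivial θ

variable (hW : ∀ a, ContinuousOn (W a) k.supp)
include hW

theorem A2_cont : Continuous (uncurry (k.A2 B G m W)) :=
  have p := pi_fix (O := (univ : Set ℝ)) hB hm hk
  have q := qu_fix (O := (univ : Set ℝ)) hB hm hk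
  (continuous_pa (continuous_finsetSum _ fun a _ =>
    ((dat hk).vel_cont G a).smul ((dat hk).cont_on (hW a))) (p.s0.ct 0 trivial) (p.d.ct 0 trivial)
    (q.s0.ct 0 trivial) (q.d.ct 0 trivial)).congr fun z => (A2_eq G W z.1 z.2).symm

/-- the transport in the symbol solves its equation -/
theorem trp_A2 (θ : Ci) : trp (k.A2 B G m W θ) 0 = 1 ∧ ∀ s, HasDerivAt (trp (k.A2 B G m W θ))
    (-(k.A2 B G m W θ s * trp (k.A2 B G m W θ) s)) s :=
  trp_spec ((A2_cont hB hm hk hW).uncurry_left θ)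

theorem c2_A2 : c2 (k.A2 B G m W) = Phi k B m G fun a => c2 (Wp k W a) := by
  have p := pi_fix (O := (univ : Set ℝ)) hB hm hk
  have q := qu_fix (O := (univ : Set ℝ)) hB hm hk
  refine cm_eq fun z => ?_
  rw [A2_eq, ← c2_apply (p.s0.ct 0 trivial) z, ← c2_apply (p.d.ct 0 trivial) z,
    ← c2_apply (q.s0.ct 0 trivial) z, ← c2_apply (q.d.ct 0 trivial) z]
  have e : (∑ a, bilC (ContinuousLinearMap.lsmul ℝ ℝ) (c2 fun θ s => k.vel G θ s a)
      (c2 (Wp k W a))) z = ∑ a, k.vel G z.2 z.1 a • W a (k.γ z.2 z.1) := by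
    rw [ContinuousMap.sum_apply]
    refine Finset.sum_congr rfl fun a _ => ?_
    rw [bilC_apply, c2_apply ((dat hk).vel_cont G a), c2_apply ((dat hk).cont_on (hW a))]; rfl
  rw [← e]; rfl

theorem Psi_apply (θ : Ci) : Psi k B m G (fun a => c2 (Wp k W a)) θ = k.sym B G m W θ := by
  rw [Psi, Sy_apply, ← c2_A2 hB hm hk hW, Hol_trp (A2_cont hB hm hk hW),
    Hol_trp (A2_cont hB hm hk hW)]
  rfl

theorem cm_sym : cm (k.sym B G m W) = Psi k B m G fun a => c2 (Wp k W a) :=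
  cm_eq (Psi_apply hB hm hk hW)

/-- **The symbol is continuous.** -/
theorem sym_cont : Continuous (k.sym B G m W) :=
  funext (Psi_apply hB hm hk hW) ▸ (Psi k B m G fun a => c2 (Wp k W a)).continuous

theorem T_eq : k.T B G m W = tpzL m.J (m.pp B k.x0) (Psi k B m G fun a => c2 (Wp k W a)) := by
  rw [← cm_sym hB hm hk hW]; rfl

omit hW

/-- uniform version for a fixed frame -/
theorem uc_Psi {J : Type} {X : J → Type} [∀ i, NormedAddCommGroup (X i)]
    [∀ i, NormedSpace ℝ (X i)] {Q : Rg X} {w : ι → ∀ i, X i → C(II × Ci, En (Fin m.N))}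
    (hw : ∀ a, UC Q (w a)) : UC Q fun i x => Psi k B m G fun a => w a i x :=
  uc_Sy _ (uc_pa (UC.sum fun a => (hw a).clm (L := fun _ => bilC _ _) (Bv.const _))
    (UC.const (Bv.const _)) (UC.const (Bv.const _)) (UC.const (Bv.const _))
    (UC.const (Bv.const _))) (UC.const (Bv.const _))

end fixed

variable (hk : ∀ x ∈ O, k.OK B (F x))
include hF hk

theorem pi_x0 : ContDiffOn ℝ ∞ (fun x => k.pi B (F x) m k.x0) O := fun x hx =>
  (pi_s1 hB hm (dat (hk x hx)) hF fun x hx => (hk x hx).om).s0.ev 0 ⟨le_rfl, zero_le_one⟩ x hx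

theorem contDiffOn_Psi {w : X → ι → C(II × Ci, En (Fin m.N))}
    (hw : ∀ a, ContDiffOn ℝ ∞ (fun x => w x a) O) :
    ContDiffOn ℝ ∞ (fun x => Psi k B m (F x) (w x)) O := fun x hx => by
  have h := dat (hk x hx)
  have p := pi_s1 hB hm h hF fun x hx => (hk x hx).om
  have q := qu_s1 hB hm h hF (fun x hx => (hk x hx).om) fun x hx => (hk x hx).q0 m hm
  exact contDiffOn_Sy _ (contDiffOn_pa (ContDiffOn.sum fun a _ =>
    ((bilC _).contDiff.comp_contDiffOn (hF.vel a).sm).clm_apply (hw a)) p.s0.sm p.d.sm q.s0.sm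
    q.d.sm) (pi_x0 hB hm hF hk) x hx

/-- **The symbol depends smoothly on the frame and on the connection in `C⁰`.** -/
theorem sym_sm {W : X → m.Cn} (hc : ∀ x ∈ O, ∀ a, ContinuousOn (W x a) k.supp)
    (hW : ∀ a, S0 O fun x => Wp k (W x) a) :
    ContDiffOn ℝ ∞ (fun x => cm (k.sym B (F x) m (W x))) O :=
  (contDiffOn_Psi hB hm hF hk fun a => (hW a).sm).congr fun x hx =>
    cm_sym hB hm (hk x hx) (hc x hx)

theorem T_sm {W : X → m.Cn} (hc : ∀ x ∈ O, ∀ a, ContinuousOn (W x a) k.supp)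
    (hW : ∀ a, S0 O fun x => Wp k (W x) a) : ContDiffOn ℝ ∞ (fun x => k.T B (F x) m (W x)) O :=
  (tpzL m.J (m.pp B k.x0)).contDiff.comp_contDiffOn (sym_sm hB hm hF hk hc hW)

/-- **Uniform convergence of the connections along the paths gives uniform convergence of the
symbols.** -/
theorem sym_tendsto {α : Type*} {l : Filter α} {x : α → X} {x₀ : X} (h0 : x₀ ∈ O)
    (hx : Tendsto x l (𝓝[O] x₀)) {W : α → m.Cn} {W₀ : m.Cn}
    (hc : ∀ᶠ n in l, ∀ a, ContinuousOn (W n a) k.supp) (hc₀ : ∀ a, ContinuousOn (W₀ a) k.supp)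
    (hW : ∀ a, TendstoUniformlyOn (fun n => W n a) (W₀ a) l k.supp) :
    Tendsto (fun n => cm (k.sym B (F (x n)) m (W n))) l (𝓝 (cm (k.sym B (F x₀) m W₀))) := by
  have h := dat (hk x₀ h0)
  have h1 := (contDiffOn_Psi (X := X × (ι → C(II × Ci, En (Fin m.N)))) (O := O ×ˢ univ) hB hm
    (hF.reparam contDiffOn_fst fun _ hz => hz.1) (fun z hz => hk z.1 hz.1) (w := fun z => z.2)
    fun a => (contDiff_apply ℝ _ a).comp_contDiffOn contDiffOn_snd).continuousOn
    (x₀, fun a => c2 (Wp k W₀ a)) ⟨h0, trivial⟩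
  have h2 : Tendsto (fun n => fun a => c2 (Wp k (W n) a)) l (𝓝 fun a => c2 (Wp k W₀ a)) := by
    refine tendsto_pi_nhds.2 fun a => Metric.tendsto_nhds.2 fun ε hε => ?_
    filter_upwards [hc, Metric.tendstoUniformlyOn_iff.1 (hW a) ε hε] with n h3 h4
    rw [ContinuousMap.dist_lt_iff hε]
    intro z
    rw [c2_apply (h.cont_on (h3 a)), c2_apply (h.cont_on (hc₀ a)), dist_comm]
    exact h4 _ ⟨(_, _), rfl⟩
  have h3 := (tendsto_nhdsWithin_iff.1 hx)
  rw [cm_sym hB hm (hk x₀ h0) hc₀]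
  refine (h1.tendsto.comp (tendsto_nhdsWithin_iff.2 ⟨h3.1.prodMk_nhds h2,
    h3.2.mono fun n hn => ⟨hn, trivial⟩⟩)).congr' ?_
  filter_upwards [hc, h3.2] with n h4 h5
  exact (cm_sym hB hm (hk _ h5) h4).symm

theorem T_tendsto {α : Type*} {l : Filter α} {x : α → X} {x₀ : X} (h0 : x₀ ∈ O)
    (hx : Tendsto x l (𝓝[O] x₀)) {W : α → m.Cn} {W₀ : m.Cn}
    (hc : ∀ᶠ n in l, ∀ a, ContinuousOn (W n a) k.supp) (hc₀ : ∀ a, ContinuousOn (W₀ a) k.supp)
    (hW : ∀ a, TendstoUniformlyOn (fun n => W n a) (W₀ a) l k.supp) :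
    Tendsto (fun n => k.T B (F (x n)) m (W n)) l (𝓝 (k.T B (F x₀) m W₀)) :=
  ((tpzL m.J (m.pp B k.x0)).continuous.tendsto _).comp (sym_tendsto hB hm hF hk h0 hx hc hc₀ hW)

end Crest.Agent.X212.Csm97
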