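import Crest.Agent.Lib.ODEFlow
import Crest.Agent.R202.LinODE
import Crest.Agent.X212.An.Cut
import Crest.Agent.X212.Mon62.UC

/-!
# Row 212, CUT-SM (helper97), part 1: transport as a smooth map of the coefficient in `C⁰`

`hol a` : the value at time one of the solution of `P' = -a P`, `P 0 = 1`, for `a : C([0,1], R)`.
`c2 f` : a function of `(θ, s)` as an element of `C([0,1] × Θ, N)`; `Hol`.
`S0`, `S1` : families that are smooth maps to `C⁰`, `C¹` along the paths.
-/

set_option autoImplicit false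
set_option linter.unusedSectionVars false
noncomputable section
open scoped ContDiff Topology
open Set Function Filter

namespace Crest.Agent.X212.Csm97
open Crest.Agent.Lib.ODEFlow hiding I
open An (cm CL)
open Mon62 (UC Rg Bv Bd)

abbrev II : Type := Crest.Agent.Lib.ODEFlow.I
/-- continuous maps, with the instances of normed spaces -/
abbrev CN (K N : Type) [TopologicalSpace K] [NormedAddCommGroup N] : Type := C(K, N)

/-- evaluation -/
def evC {K N : Type} [TopologicalSpace K] [CompactSpace K] [NormedAddCommGroup N]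
    [NormedSpace ℝ N] (z : K) : CL C(K, N) N := ContinuousMap.evalCLM ℝ z

section vol
variable {R R' : Type} [NormedRing R] [NormedAlgebra ℝ R] [CompleteSpace R]
  [NormedRing R'] [NormedAlgebra ℝ R'] [CompleteSpace R']

/-- `a ↦ (p ↦ ∫ a p)` -/
def vm : CL C(II, R) (CL C(II, R) C(II, R)) :=
  ContinuousLinearMap.compL ℝ _ _ _ vol ∘L ContinuousLinearMap.mul ℝ C(II, R)

/-- `p ↦ p + ∫ a p` -/
def Lv (a : C(II, R)) : CL C(II, R) C(II, R) := ContinuousLinearMap.id ℝ _ + vm a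

theorem Lv_apply (a p : C(II, R)) (t : II) :
    Lv a p t = p t + ∫ s in (0 : ℝ)..t, a (pr s) * p (pr s) := rfl

theorem Lv_eq (a : C(II, R)) : Lv a =
    ContinuousLinearMap.id ℝ _ - vol ∘L (-ContinuousLinearMap.mul ℝ C(II, R) a) := by
  rw [ContinuousLinearMap.comp_neg, sub_neg_eq_add]; rfl

theorem mul_bd {a : C(II, R)} {K : ℝ} (hK : ‖a‖ ≤ K) (h : C(II, R)) (t : II) :
    ‖(-ContinuousLinearMap.mul ℝ C(II, R) a) h t‖ ≤ K * ‖h t‖ := by
  change ‖-(a t * h t)‖ ≤ _
  rw [norm_neg]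
  exact (norm_mul_le _ _).trans
    (mul_le_mul_of_nonneg_right ((a.norm_coe_le_norm t).trans hK) (norm_nonneg _))

theorem Lv_inv (a : C(II, R)) : (Lv a).IsInvertible := by
  rw [Lv_eq]; exact isInvertible_id_sub_vol_comp _ (norm_nonneg a) (mul_bd le_rfl)

theorem norm_Lv_inv {K : ℝ} (hK : 0 ≤ K) {a : C(II, R)} (ha : ‖a‖ ≤ K) :
    ‖(Lv a).inverse‖ ≤ Real.exp K := by
  refine ContinuousLinearMap.opNorm_le_bound _ (Real.exp_pos K).le fun f => ?_
  set T := vol ∘L (-ContinuousLinearMap.mul ℝ C(II, R) a) with hT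
  set u := (Lv a).inverse f
  have hb : ∀ (n : ℕ) (h : C(II, R)), ‖(T ^ n) h‖ ≤ K ^ n / n.factorial * ‖h‖ := fun n h => by
    rw [ContinuousMap.norm_le _ (by positivity)]
    intro t
    refine (norm_vol_comp_pow_apply _ hK (mul_bd ha) n h t).trans ?_
    gcongr
    · exact mul_nonneg hK t.2.1
    · exact mul_le_of_le_one_right hK t.2.2
  have h1 : u = f + T u := by
    have : Lv a u = f := (Lv_inv a).self_apply_inverse f
    rw [Lv_eq] at this
    exact eq_add_of_sub_eq this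
  have h2 : ∀ n : ℕ, u = ∑ i ∈ Finset.range n, (T ^ i) f + (T ^ n) u := fun n => by
    induction n with
    | zero => simp
    | succ n ih =>
      rw [Finset.sum_range_succ, add_assoc, pow_succ, mul_apply_eq_comp, ← map_add,
        ← h1]
      exact ih
  have h3 : ∀ n : ℕ, ‖u‖ ≤ Real.exp K * ‖f‖ + K ^ n / n.factorial * ‖u‖ := fun n => by
    conv_lhs => rw [h2 n]
    refine (norm_add_le _ _).trans (add_le_add ((norm_sum_le _ _).trans ?_) (hb n u))
    refine (Finset.sum_le_sum fun i _ => hb i f).trans ?_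
    rw [← Finset.sum_mul]
    exact mul_le_mul_of_nonneg_right (Real.sum_le_exp_of_nonneg hK n) (norm_nonneg f)
  have h4 : Tendsto (fun n : ℕ => Real.exp K * ‖f‖ + K ^ n / n.factorial * ‖u‖) atTop
      (𝓝 (Real.exp K * ‖f‖ + 0 * ‖u‖)) :=
    ((FloorSemiring.tendsto_pow_div_factorial_atTop K).mul_const _).const_add _
  simpa using ge_of_tendsto' h4 h3

/-- the fundamental solution -/
def fund (a : C(II, R)) : C(II, R) := (Lv a).inverse 1

theorem Lv_fund (a : C(II, R)) : Lv a (fund a) = 1 := (Lv_inv a).self_apply_inverse 1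

theorem fund_eq {a p : C(II, R)} (h : Lv a p = 1) : fund a = p := by
  rw [fund, ← h]; exact (Lv_inv a).inverse_apply_self p

theorem contDiff_fund : ContDiff ℝ ∞ (fund : C(II, R) → C(II, R)) := by
  refine ContDiff.clm_apply (contDiff_iff_contDiffAt.2 fun a => ?_) contDiff_const
  obtain ⟨e, he⟩ := Lv_inv a
  have := contDiffAt_map_inverse (𝕜 := ℝ) (n := ∞) e
  rw [he] at this
  exact this.comp a (contDiff_const.add vm.contDiff).contDiffAt

theorem fund_ode {A P : ℝ → R} (hA : Continuous A) (h0 : P 0 = 1)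
    (hP : ∀ s, HasDerivAt P (-(A s * P s)) s) {a : C(II, R)} (ha : ∀ t : II, a t = A t) (t : II) :
    fund a t = P t := by
  have hc : Continuous P := continuous_iff_continuousAt.2 fun s => (hP s).continuousAt
  rw [fund_eq (p := ⟨fun t => P t, hc.comp continuous_subtype_val⟩) ?_]; · rfl
  ext t
  have h1 := intervalIntegral.integral_eq_sub_of_hasDerivAt (a := 0) (b := t)
    (fun s _ => hP s) ((hA.mul hc).neg.intervalIntegrable _ _)
  have h2 : ∫ s in (0 : ℝ)..t, a (pr s) * P (pr s) = ∫ s in (0 : ℝ)..t, A s * P s :=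
    intervalIntegral.integral_congr fun s hs => by
      rw [uIcc_of_le t.2.1] at hs
      simp only [ha, pr_of_mem ⟨hs.1, hs.2.trans t.2.2⟩]
  rw [intervalIntegral.integral_neg, h0] at h1
  change P t + ∫ s in (0 : ℝ)..t, a (pr s) * P (pr s) = 1
  rw [h2, ← neg_neg (∫ s in (0 : ℝ)..t, A s * P s), h1]
  simp

theorem fund_map (φ : R →L[ℝ] R') (h1 : φ 1 = 1) (hm : ∀ x y, φ (x * y) = φ x * φ y)
    {a : C(II, R)} {a' : C(II, R')} (ha : ∀ t, a' t = φ (a t)) (t : II) :
    fund a' t = φ (fund a t) := by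
  rw [fund_eq (p := ⟨fun t => φ (fund a t), φ.continuous.comp (fund a).continuous⟩) ?_]; · rfl
  ext t
  have h2 := congrArg (fun p : C(II, R) => φ (p t)) (Lv_fund a)
  simp only [Lv_apply, map_add, ContinuousMap.one_apply, h1] at h2
  rw [← φ.intervalIntegral_comp_comm (f := fun s => a (pr s) * fund a (pr s))
    (((continuous_comp_pr a).mul (continuous_comp_pr (fund a))).intervalIntegrable _ _)] at h2
  simpa only [Lv_apply, ContinuousMap.coe_mk, ha, ← hm, ContinuousMap.one_apply] using h2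

theorem uc_fund {J : Type} {X : J → Type} [∀ i, NormedAddCommGroup (X i)]
    [∀ i, NormedSpace ℝ (X i)] {Q : Rg X} {a : ∀ i, X i → C(II, R)} (h : UC Q a) :
    UC Q fun i x => fund (a i x) := by
  obtain ⟨K, hK, hb⟩ := h.bd0.nn
  exact (UC.inverse (L := fun i x => Lv (a i x))
    ((UC.const (Bv.const _)).add (h.clm (Bv.const vm))) (fun _ _ _ => Lv_inv _)
    ⟨_, fun i x hx => norm_Lv_inv hK (hb i x hx)⟩).app (UC.const (Bv.const 1))

end vol

variable {Θ : Type} [TopologicalSpace Θ] [CompactSpace Θ]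
  {N N' N'' : Type} [NormedAddCommGroup N] [NormedSpace ℝ N] [NormedAddCommGroup N']
  [NormedSpace ℝ N'] [NormedAddCommGroup N''] [NormedSpace ℝ N'']

omit [NormedSpace ℝ N] [CompactSpace Θ] in
theorem cm_apply {g : Θ → N} (h : Continuous g) (θ : Θ) : cm g θ = g θ := by
  rw [cm, dif_pos h]; rfl

omit [NormedSpace ℝ N] [CompactSpace Θ] in
theorem cm_eq {g : Θ → N} {G : C(Θ, N)} (h : ∀ θ, G θ = g θ) : cm g = G := by
  obtain rfl : g = G := (funext h).symm
  ext θ; exact cm_apply G.continuous θ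

/-- currying -/
def curL : CL C(II × Θ, N) (CN II C(Θ, N)) :=
  LinearMap.mkContinuous
    { toFun := fun g => ⟨g.curry, g.curry.continuous⟩
      map_add' := fun _ _ => rfl
      map_smul' := fun _ _ => rfl } 1
    fun g => by
      rw [one_mul, ContinuousMap.norm_le _ (norm_nonneg g)]
      intro t
      rw [ContinuousMap.norm_le _ (norm_nonneg g)]
      exact fun θ => g.norm_coe_le_norm (t, θ)

/-- a function of `(θ, s)` on `[0,1] × Θ` -/
def c2 (f : Θ → ℝ → N) : C(II × Θ, N) := cm fun z => f z.2 z.1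

omit [NormedSpace ℝ N] in
theorem c2_apply {f : Θ → ℝ → N} (h : Continuous (uncurry f)) (z : II × Θ) :
    c2 f z = f z.2 z.1 :=
  cm_apply (h.comp (continuous_snd.prodMk (continuous_subtype_val.comp continuous_fst))) z

/-- pointwise bilinear maps -/
def bilC (β : N →L[ℝ] N' →L[ℝ] N'') : CL C(Θ, N) (CL C(Θ, N') C(Θ, N'')) :=
  applyB ∘L β.compLeftContinuous ℝ Θ

@[simp] theorem bilC_apply (β : N →L[ℝ] N' →L[ℝ] N'') (f : C(Θ, N)) (g : C(Θ, N')) (θ : Θ) :
    bilC β f g θ = β (f θ) (g θ) := rfl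

section Hol
variable {R : Type} [NormedRing R] [NormedAlgebra ℝ R] [CompleteSpace R]

/-- the transport to time `t` -/
def Hol (t : II) (a : C(II × Θ, R)) : C(Θ, R) := fund (curL a) t

theorem contDiff_Hol (t : II) : ContDiff ℝ ∞ (Hol t : C(II × Θ, R) → C(Θ, R)) :=
  (evC t).contDiff.comp (contDiff_fund.comp curL.contDiff)

theorem uc_Hol (t : II) {J : Type} {X : J → Type} [∀ i, NormedAddCommGroup (X i)]
    [∀ i, NormedSpace ℝ (X i)] {Q : Rg X} {a : ∀ i, X i → C(II × Θ, R)} (h : UC Q a) :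
    UC Q fun i x => Hol t (a i x) := by
  have h1 : UC Q fun i x => curL (a i x) := h.clm (L := fun _ => curL) (Bv.const _)
  have h2 := uc_fund (R := C(Θ, R)) h1
  exact h2.clm (L := fun _ => evC t) (Bv.const _)

theorem Hol_ode {A : Θ → ℝ → R} (hA : Continuous (uncurry A)) {θ : Θ} {P : ℝ → R} (h0 : P 0 = 1)
    (hP : ∀ s, HasDerivAt P (-(A θ s * P s)) s) (t : II) : Hol t (c2 A) θ = P t := by
  have hθ : Continuous (A θ) := hA.uncurry_left θ
  rw [← fund_ode hθ h0 hP (a := ⟨fun t => A θ t, hθ.comp continuous_subtype_val⟩) (fun _ => rfl)]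
  exact (fund_map (R := C(Θ, R)) (evC θ) rfl (fun _ _ => rfl) (a := curL (c2 A))
    (fun s => (c2_apply hA (s, θ)).symm) t).symm

end Hol

theorem trp_spec {κ : Type} [Fintype κ] {A : ℝ → An.En κ} (hA : Continuous A) :
    An.trp A 0 = 1 ∧ ∀ s, HasDerivAt (An.trp A) (-(A s * An.trp A s)) s := by
  have h : ∃ P : ℝ → An.En κ, P 0 = 1 ∧ ∀ s, HasDerivAt P (-(A s * P s)) s := by
    obtain ⟨S, -, h1, h2⟩ := R202.LinODE.exists_flow (X := Unit)
      (A := fun _ s => -ContinuousLinearMap.mul ℝ (An.En κ) (A s))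
      (((ContinuousLinearMap.mul ℝ (An.En κ)).continuous.comp (hA.comp continuous_snd)).neg) 0
      (x0 := fun _ => 1) continuous_const
    exact ⟨S (), h1 (), h2 ()⟩
  rw [An.trp, dif_pos h]; exact h.choose_spec

theorem Hol_trp {κ : Type} [Fintype κ] {A : Θ → ℝ → An.En κ} (hA : Continuous (uncurry A))
    (θ : Θ) (t : II) : Hol t (c2 A) θ = An.trp (A θ) t :=
  Hol_ode hA (trp_spec (hA.uncurry_left θ)).1 (trp_spec (hA.uncurry_left θ)).2 t

/-! ### families -/

variable {X : Type} [NormedAddCommGroup X] [NormedSpace ℝ X] {O : Set X}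

/-- smooth maps to `C⁰` -/
structure S0 (O : Set X) (f : X → Θ → ℝ → N) : Prop where
  ct : ∀ x ∈ O, Continuous (uncurry (f x))
  sm : ContDiffOn ℝ ∞ (fun x => c2 (f x)) O

namespace S0
variable {f f' : X → Θ → ℝ → N} {g : X → Θ → ℝ → N'}

theorem of_map (hc : ∀ x ∈ O, Continuous (uncurry (f x))) {G : X → C(II × Θ, N)}
    (hG : ContDiffOn ℝ ∞ G O) (e : ∀ x ∈ O, ∀ z, G x z = f x z.2 z.1) : S0 O f :=
  ⟨hc, hG.congr fun x hx => cm_eq (e x hx)⟩

theorem congr (h : S0 O f) (e : ∀ x ∈ O, ∀ θ s, f' x θ s = f x θ s) : S0 O f' := by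
  have e' : ∀ x ∈ O, f' x = f x := fun x hx => funext fun θ => funext (e x hx θ)
  exact ⟨fun x hx => e' x hx ▸ h.ct x hx, h.sm.congr fun x hx => by rw [e' x hx]⟩

theorem fixed {u : Θ → ℝ → N} (hu : Continuous (uncurry u)) : S0 O fun _ => u :=
  ⟨fun _ _ => hu, contDiffOn_const⟩

theorem par {c : X → N} (hc : ContDiffOn ℝ ∞ c O) : S0 O fun x (_ : Θ) _ => c x :=
  of_map (fun _ _ => continuous_const)
    ((ContinuousLinearMap.const ℝ (II × Θ)).contDiff.comp_contDiffOn hc) fun _ _ _ => rfl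

theorem reparam {X' : Type} [NormedAddCommGroup X'] [NormedSpace ℝ X'] {φ : X' → X} {O' : Set X'}
    (h : S0 O f) (hφ : ContDiffOn ℝ ∞ φ O') (hm : MapsTo φ O' O) : S0 O' fun x => f (φ x) :=
  ⟨fun _ hx => h.ct _ (hm hx), h.sm.comp hφ hm⟩

theorem add (h : S0 O f) (h' : S0 O f') : S0 O fun x θ s => f x θ s + f' x θ s :=
  of_map (fun x hx => (h.ct x hx).add (h'.ct x hx)) (h.sm.add h'.sm) fun x hx z => by
    rw [ContinuousMap.add_apply, c2_apply (h.ct x hx), c2_apply (h'.ct x hx)]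

theorem bil (β : N →L[ℝ] N' →L[ℝ] N'') (h : S0 O f) (h' : S0 O g) :
    S0 O fun x θ s => β (f x θ s) (g x θ s) :=
  of_map (fun x hx => (β.continuous.comp (h.ct x hx)).clm_apply (h'.ct x hx))
    (((bilC β).contDiff.comp_contDiffOn h.sm).clm_apply h'.sm) fun x hx z => by
      rw [comp_apply, bilC_apply, c2_apply (h.ct x hx), c2_apply (h'.ct x hx)]

theorem clm (L : N →L[ℝ] N') (h : S0 O f) : S0 O fun x θ s => L (f x θ s) :=
  of_map (fun x hx => L.continuous.comp (h.ct x hx))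
    ((L.compLeftContinuous ℝ (II × Θ)).contDiff.comp_contDiffOn h.sm) fun x hx z =>
      congrArg L (c2_apply (h.ct x hx) z)

theorem cmp {φ : N → N'} {U : Set N} (hU : IsOpen U) (hφ : ContDiffOn ℝ ∞ φ U) (h : S0 O f)
    (hm : ∀ x ∈ O, ∀ θ s, f x θ s ∈ U) : S0 O fun x θ s => φ (f x θ s) := by
  have h1 : ∀ x ∈ O, c2 (f x) ∈ mapsIn (II × Θ) U := fun x hx z => by
    rw [c2_apply (h.ct x hx)]; exact hm x hx _ _
  exact of_map (fun x hx => hφ.continuousOn.comp_continuous (h.ct x hx) fun z => hm x hx _ _)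
    ((contDiffOn_nem (n := ⊤) hU hφ).comp h.sm h1) fun x hx z => by
      rw [comp_apply, nem_apply hφ.continuousOn (h1 x hx), c2_apply (h.ct x hx)]

theorem neg (h : S0 O f) : S0 O fun x θ s => -f x θ s := h.clm (-ContinuousLinearMap.id ℝ N)

theorem sub (h : S0 O f) (h' : S0 O f') : S0 O fun x θ s => f x θ s - f' x θ s :=
  (h.add h'.neg).congr fun _ _ _ _ => sub_eq_add_neg _ _

theorem smul {c : X → Θ → ℝ → ℝ} (hc : S0 O c) (h : S0 O f) :
    S0 O fun x θ s => c x θ s • f x θ s := bil (ContinuousLinearMap.lsmul ℝ ℝ) hc h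

theorem mul {R : Type} [NormedRing R] [NormedAlgebra ℝ R] {u v : X → Θ → ℝ → R} (hu : S0 O u)
    (hv : S0 O v) : S0 O fun x θ s => u x θ s * v x θ s := bil (ContinuousLinearMap.mul ℝ R) hu hv

theorem const (c : N) : S0 O fun _ (_ : Θ) _ => c := fixed continuous_const

theorem csmul (c : ℝ) (h : S0 O f) : S0 O fun x θ s => c • f x θ s := (const c).smul h

theorem sum {κ : Type*} [Fintype κ] {u : κ → X → Θ → ℝ → N} (h : ∀ i, S0 O (u i)) :
    S0 O fun x θ s => ∑ i, u i x θ s :=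
  of_map (fun x hx => continuous_finsetSum _ fun i _ => (h i).ct x hx)
    (ContDiffOn.sum fun i (_ : i ∈ Finset.univ) => (h i).sm) fun x hx z => by
      rw [ContinuousMap.sum_apply]
      exact Finset.sum_congr rfl fun i _ => c2_apply ((h i).ct x hx) z

/-- evaluation -/
theorem ev (h : S0 O f) (θ : Θ) {s : ℝ} (hs : s ∈ Icc (0 : ℝ) 1) :
    ContDiffOn ℝ ∞ (fun x => f x θ s) O :=
  ((evC ((⟨s, hs⟩ : II), θ)).contDiff.comp_contDiffOn h.sm).congr
    fun x hx => (c2_apply (h.ct x hx) (⟨s, hs⟩, θ)).symm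

end S0

/-- smooth maps to `C¹` along the paths -/
structure S1 (O : Set X) (f : X → Θ → ℝ → N) : Prop where
  s0 : S0 O f
  df : ∀ x ∈ O, ∀ θ, Differentiable ℝ (f x θ)
  d : S0 O fun x θ => deriv (f x θ)

namespace S1
variable {f f' : X → Θ → ℝ → N} {g : X → Θ → ℝ → N'}

theorem of_der (h : S0 O f) (h' : S0 O f') (e : ∀ x ∈ O, ∀ θ s, HasDerivAt (f x θ) (f' x θ s) s) :
    S1 O f :=
  ⟨h, fun x hx θ s => (e x hx θ s).differentiableAt, h'.congr fun x hx θ s => (e x hx θ s).deriv⟩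

theorem der (h : S1 O f) {x : X} (hx : x ∈ O) (θ : Θ) (s : ℝ) :
    HasDerivAt (f x θ) (deriv (f x θ) s) s := (h.df x hx θ s).hasDerivAt

theorem congr (h : S1 O f) (e : ∀ x ∈ O, ∀ θ s, f' x θ s = f x θ s) : S1 O f' :=
  of_der (h.s0.congr e) h.d fun x hx θ s => by
    rw [show f' x θ = f x θ from funext (e x hx θ)]; exact h.der hx θ s

theorem par {c : X → N} (hc : ContDiffOn ℝ ∞ c O) : S1 O fun x (_ : Θ) _ => c x :=
  of_der (S0.par hc) (S0.const 0) fun _ _ _ s => hasDerivAt_const s _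

theorem const (c : N) : S1 O fun _ (_ : Θ) _ => c := par contDiffOn_const

theorem reparam {X' : Type} [NormedAddCommGroup X'] [NormedSpace ℝ X'] {φ : X' → X} {O' : Set X'}
    (h : S1 O f) (hφ : ContDiffOn ℝ ∞ φ O') (hm : MapsTo φ O' O) : S1 O' fun x => f (φ x) :=
  ⟨h.s0.reparam hφ hm, fun _ hx => h.df _ (hm hx), h.d.reparam hφ hm⟩

theorem add (h : S1 O f) (h' : S1 O f') : S1 O fun x θ s => f x θ s + f' x θ s :=
  of_der (h.s0.add h'.s0) (h.d.add h'.d) fun _ hx θ s => (h.der hx θ s).add (h'.der hx θ s)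

theorem bil (β : N →L[ℝ] N' →L[ℝ] N'') (h : S1 O f) (h' : S1 O g) :
    S1 O fun x θ s => β (f x θ s) (g x θ s) :=
  of_der (h.s0.bil β h'.s0) ((h.d.bil β h'.s0).add (h.s0.bil β h'.d)) fun _ hx θ s =>
    (β.hasFDerivAt.comp_hasDerivAt s (h.der hx θ s)).clm_apply (h'.der hx θ s)

theorem clm (L : N →L[ℝ] N') (h : S1 O f) : S1 O fun x θ s => L (f x θ s) :=
  of_der (h.s0.clm L) (h.d.clm L) fun _ hx θ s => L.hasFDerivAt.comp_hasDerivAt s (h.der hx θ s)

theorem cmp {φ : N → N'} {U : Set N} (hU : IsOpen U) (hφ : ContDiffOn ℝ ∞ φ U) (h : S1 O f)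
    (hm : ∀ x ∈ O, ∀ θ s, f x θ s ∈ U) : S1 O fun x θ s => φ (f x θ s) :=
  of_der (h.s0.cmp hU hφ hm) ((h.s0.cmp hU (hφ.fderiv_of_isOpen hU (m := ∞) (by simp)) hm).bil
    (ContinuousLinearMap.id ℝ (N →L[ℝ] N')) h.d) fun x hx θ s =>
      ((hφ.contDiffAt (hU.mem_nhds (hm x hx θ s))).differentiableAt
        (by simp)).hasFDerivAt.comp_hasDerivAt s (h.der hx θ s)

theorem neg (h : S1 O f) : S1 O fun x θ s => -f x θ s := h.clm (-ContinuousLinearMap.id ℝ N)

theorem sub (h : S1 O f) (h' : S1 O f') : S1 O fun x θ s => f x θ s - f' x θ s :=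
  (h.add h'.neg).congr fun _ _ _ _ => sub_eq_add_neg _ _

theorem smul {c : X → Θ → ℝ → ℝ} (hc : S1 O c) (h : S1 O f) :
    S1 O fun x θ s => c x θ s • f x θ s := bil (ContinuousLinearMap.lsmul ℝ ℝ) hc h

theorem mul {R : Type} [NormedRing R] [NormedAlgebra ℝ R] {u v : X → Θ → ℝ → R} (hu : S1 O u)
    (hv : S1 O v) : S1 O fun x θ s => u x θ s * v x θ s := bil (ContinuousLinearMap.mul ℝ R) hu hv

theorem csmul (c : ℝ) (h : S1 O f) : S1 O fun x θ s => c • f x θ s := (const c).smul h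

theorem fsum {κ : Type*} (t : Finset κ) {u : κ → X → Θ → ℝ → N} (h : ∀ i ∈ t, S1 O (u i)) :
    S1 O fun x θ s => ∑ i ∈ t, u i x θ s := by
  classical
  induction t using Finset.induction_on with
  | empty => exact (const 0).congr fun _ _ _ _ => Finset.sum_empty
  | insert a t ha ih =>
    exact ((h a (Finset.mem_insert_self a t)).add
      (ih fun i hi => h i (Finset.mem_insert_of_mem hi))).congr fun _ _ _ _ => Finset.sum_insert ha

theorem sum {κ : Type*} [Fintype κ] {u : κ → X → Θ → ℝ → N} (h : ∀ i, S1 O (u i)) :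
    S1 O fun x θ s => ∑ i, u i x θ s := fsum _ fun i _ => h i

theorem lsum {κ : Type*} (l : List κ) {u : κ → X → Θ → ℝ → N} (h : ∀ i ∈ l, S1 O (u i)) :
    S1 O fun x θ s => (l.map fun i => u i x θ s).sum := by
  induction l with
  | nil => exact const 0
  | cons a l ih =>
    exact ((h a List.mem_cons_self).add (ih fun i hi => h i (List.mem_cons_of_mem _ hi))).congr
      fun _ _ _ _ => by simp

end S1

end Crest.Agent.X212.Csm97
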